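import Vale.Agent.P214.FV.Cyl

/-!
# P214, block SL: slab estimates. Part 1: Hessians of compositions along a plane.
-/

open Set Filter Topology MeasureTheory Metric
open scoped RealInnerProductSpace

set_option linter.all false

namespace Vale.Agent.P214.SL

open Vale.Agent.P214.FV

variable {E : Type*} [NormedAddCommGroup E] [InnerProductSpace ℝ E] [FiniteDimensional ℝ E]
variable {E' : Type*} [NormedAddCommGroup E'] [InnerProductSpace ℝ E']

/-- `|∇_V v|²`: the square of the Hilbert–Schmidt norm of `Dv ∘ P` -/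
noncomputable def gsq (v : E → E') (P : E →L[ℝ] E) (y : E) : ℝ :=
  ∑ k, ‖fderiv ℝ v y (P (stdOrthonormalBasis ℝ E k))‖ ^ 2

/-- the Laplacian of `v` along the plane of the projection `P` -/
noncomputable def lapP (v : E → E') (P : E →L[ℝ] E) (y : E) : E' :=
  ∑ k, fderiv ℝ (fderiv ℝ v) y (P (stdOrthonormalBasis ℝ E k)) (P (stdOrthonormalBasis ℝ E k))

lemma gsq_nonneg (v : E → E') (P : E →L[ℝ] E) (y : E) : 0 ≤ gsq v P y :=
  Finset.sum_nonneg fun _ _ => sq_nonneg _

lemma hess_eq {F : E → ℝ} (hF : ContDiff ℝ 2 F) (B : E →L[ℝ] E) (y : E) :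
    hess F B y = ∑ k, fderiv ℝ (fderiv ℝ F) y (B (stdOrthonormalBasis ℝ E k))
      (stdOrthonormalBasis ℝ E k) := by
  have h1 : ContDiff ℝ 1 (fderiv ℝ F) := hF.fderiv_right (by norm_num)
  have h2 : HasFDerivAt (fderiv ℝ F) (fderiv ℝ (fderiv ℝ F) y) y :=
    (h1.differentiable (by norm_num) y).hasFDerivAt
  have h3 : ∀ u, fderiv ℝ (grad F) y u =
      (InnerProductSpace.toDual ℝ E).symm (fderiv ℝ (fderiv ℝ F) y u) := by
    intro u
    have h4 : HasFDerivAt (grad F)
        (((InnerProductSpace.toDual ℝ E).symm.toContinuousLinearEquiv.toContinuousLinearMap).comp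
          (fderiv ℝ (fderiv ℝ F) y)) y :=
      ((InnerProductSpace.toDual ℝ E).symm.toContinuousLinearEquiv.toContinuousLinearMap
        ).hasFDerivAt.comp y h2
    rw [h4.fderiv]
    rfl
  unfold hess
  rw [tr_eq_sum (stdOrthonormalBasis ℝ E)]
  refine Finset.sum_congr rfl fun k _ => ?_
  rw [ContinuousLinearMap.comp_apply, h3, real_inner_comm, InnerProductSpace.toDual_symm_apply]

/-- sums of bilinear expressions along a projection -/
lemma sum_proj {F : Type*} [NormedAddCommGroup F] [NormedSpace ℝ F] (M : E →L[ℝ] E →L[ℝ] F)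
    (S : Submodule ℝ E) :
    ∑ k, M (S.starProjection (stdOrthonormalBasis ℝ E k)) (stdOrthonormalBasis ℝ E k) =
      ∑ k, M (S.starProjection (stdOrthonormalBasis ℝ E k))
        (S.starProjection (stdOrthonormalBasis ℝ E k)) := by
  set b := stdOrthonormalBasis ℝ E
  have h1 : ∀ k, M (S.starProjection (b k)) (S.starProjection (b k)) =
      ∑ j, ⟪b k, S.starProjection (b j)⟫ • M (S.starProjection (b k)) (b j) := by
    intro k
    conv_lhs => rw [← b.sum_repr' (S.starProjection (b k))]
    rw [show (∑ i, ⟪b i, S.starProjection (b k)⟫ • b i) = S.starProjection (b k) from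
      b.sum_repr' _]
    conv_lhs =>
      arg 2
      rw [← b.sum_repr' (S.starProjection (b k))]
    rw [map_sum]
    refine Finset.sum_congr rfl fun j _ => ?_
    rw [map_smul]
    congr 1
    rw [← Submodule.inner_starProjection_left_eq_right, real_inner_comm]
  simp only [h1]
  rw [Finset.sum_comm]
  refine Finset.sum_congr rfl fun j _ => ?_
  have h2 : S.starProjection (b j) = ∑ k, ⟪b k, S.starProjection (b j)⟫ • S.starProjection (b k) := by
    have h3 : S.starProjection (S.starProjection (b j)) = S.starProjection (b j) :=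
      (Submodule.starProjection_eq_self_iff).2 (S.starProjection_apply_mem _)
    conv_lhs => rw [← h3, ← b.sum_repr' (S.starProjection (b j))]
    rw [map_sum]
    simp only [map_smul]
  conv_lhs => rw [h2]
  rw [map_sum, ContinuousLinearMap.sum_apply]
  refine Finset.sum_congr rfl fun k _ => ?_
  rw [map_smul, ContinuousLinearMap.smul_apply]

/-- second derivative of a composition -/
lemma fderiv_fderiv_comp {Θ : E' → ℝ} {v : E → E'} (hΘ : ContDiff ℝ 2 Θ) (hv : ContDiff ℝ 2 v)
    (y u z : E) :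
    fderiv ℝ (fderiv ℝ (fun y => Θ (v y))) y u z =
      fderiv ℝ (fderiv ℝ Θ) (v y) (fderiv ℝ v y u) (fderiv ℝ v y z) +
        fderiv ℝ Θ (v y) (fderiv ℝ (fderiv ℝ v) y u z) := by
  have hΘ1 : ContDiff ℝ 1 (fderiv ℝ Θ) := hΘ.fderiv_right (by norm_num)
  have hv1 : ContDiff ℝ 1 (fderiv ℝ v) := hv.fderiv_right (by norm_num)
  have h0 : fderiv ℝ (fun y => Θ (v y)) = fun y => (fderiv ℝ Θ (v y)).comp (fderiv ℝ v y) := by
    funext y
    exact fderiv_comp y (hΘ.differentiable (by norm_num) _) (hv.differentiable (by norm_num) _)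
  have h1 : HasFDerivAt (fun y => fderiv ℝ Θ (v y))
      ((fderiv ℝ (fderiv ℝ Θ) (v y)).comp (fderiv ℝ v y)) y :=
    ((hΘ1.differentiable (by norm_num) (v y)).hasFDerivAt).comp y
      (hv.differentiable (by norm_num) y).hasFDerivAt
  have h2 : HasFDerivAt (fderiv ℝ v) (fderiv ℝ (fderiv ℝ v) y) y :=
    (hv1.differentiable (by norm_num) y).hasFDerivAt
  have h3 := (h1.clm_comp h2).fderiv
  rw [h0, h3]
  simp
  ring

/-- **Hessian of a composition along a plane.** -/
lemma hess_comp {Θ : E' → ℝ} {v : E → E'} (hΘ : ContDiff ℝ 2 Θ) (hv : ContDiff ℝ 2 v)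
    (S : Submodule ℝ E) (y : E) :
    hess (fun y => Θ (v y)) S.starProjection y =
      (∑ k, fderiv ℝ (fderiv ℝ Θ) (v y)
        (fderiv ℝ v y (S.starProjection (stdOrthonormalBasis ℝ E k)))
        (fderiv ℝ v y (S.starProjection (stdOrthonormalBasis ℝ E k)))) +
      fderiv ℝ Θ (v y) (lapP v S.starProjection y) := by
  rw [show hess (fun y => Θ (v y)) S.starProjection y = _ from hess_eq (hΘ.comp hv) _ y,
    sum_proj]
  have h1 : ∀ u z, fderiv ℝ (fderiv ℝ (Θ ∘ v)) y u z = _ := fun u z =>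
    fderiv_fderiv_comp hΘ hv y u z
  simp only [h1]
  rw [Finset.sum_add_distrib]
  congr 1
  rw [lapP, map_sum]

end Vale.Agent.P214.SL
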