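import Vale.Agent.P214.SL.Sheet

/-!
# P214, block SL, part 5: the slab estimate in terms of the tilt.
-/

open Set Filter Topology MeasureTheory Metric
open scoped RealInnerProductSpace

set_option linter.all false

namespace Vale.Agent.P214.SL

open Vale.Agent.P214.FV

variable {E : Type*} [NormedAddCommGroup E] [InnerProductSpace ℝ E] [FiniteDimensional ℝ E]

/-- distance vector to the sheet `w` -/
noncomputable def dv (T : Submodule ℝ E) (w : E → E) (y : E) : E := hgt T y - w y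

lemma contDiff_dv {T : Submodule ℝ E} {w : E → E} {n : WithTop ℕ∞} (hd : ContDiff ℝ n w) :
    ContDiff ℝ n (dv T w) := (contDiff_hgt T).sub hd

lemma fderiv_dv {T : Submodule ℝ E} {w : E → E} (hd : Differentiable ℝ w) (y : E) :
    fderiv ℝ (dv T w) y = hgtL T - fderiv ℝ w y := by
  have h1 : HasFDerivAt (dv T w) (hgtL T - fderiv ℝ w y) y :=
    ((hgtL T).hasFDerivAt).sub (hd y).hasFDerivAt
  exact h1.fderiv

lemma lapP_dv {T : Submodule ℝ E} {w : E → E} (hd : ContDiff ℝ 2 w) (B : E →L[ℝ] E) (y : E) :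
    lapP (dv T w) B y = -lapP w B y := by
  have h1 : fderiv ℝ (dv T w) = fun y => hgtL T - fderiv ℝ w y :=
    funext fun y => fderiv_dv (hd.differentiable (by norm_num)) y
  have hd1 : ContDiff ℝ 1 (fderiv ℝ w) := hd.fderiv_right (by norm_num)
  have h2 : fderiv ℝ (fderiv ℝ (dv T w)) y = -fderiv ℝ (fderiv ℝ w) y := by
    rw [h1]
    have h3 : HasFDerivAt (fun y => hgtL T - fderiv ℝ w y) (-fderiv ℝ (fderiv ℝ w) y) y :=
      ((hd1.differentiable (by norm_num) y).hasFDerivAt).const_sub _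
    exact h3.fderiv
  unfold lapP
  rw [h2]
  simp [Finset.sum_neg_distrib]

/-- the square sum of `Dw` along a plane -/
lemma sum_Dw_le {S T : Submodule ℝ E} {w : E → E} (hw : ∀ y, w (T.starProjection y) = w y)
    (hd : Differentiable ℝ w) (y : E) :
    ∑ k, ‖fderiv ℝ w y (S.starProjection (stdOrthonormalBasis ℝ E k))‖ ^ 2 ≤
      Module.finrank ℝ S * ‖fderiv ℝ w y‖ ^ 2 := by
  calc _ ≤ ∑ k, ‖fderiv ℝ w y‖ ^ 2 * ‖S.starProjection (stdOrthonormalBasis ℝ E k)‖ ^ 2 := by
        refine Finset.sum_le_sum fun k _ => ?_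
        rw [← mul_pow]
        exact pow_le_pow_left₀ (norm_nonneg _) ((fderiv ℝ w y).le_opNorm _) 2
    _ = _ := by rw [← Finset.mul_sum, sum_norm_proj]; ring

lemma sq_add_le (a b : E) : ‖a + b‖ ^ 2 ≤ 2 * ‖a‖ ^ 2 + 2 * ‖b‖ ^ 2 := by
  have h1 := norm_add_le a b
  nlinarith [norm_nonneg a, norm_nonneg b, norm_nonneg (a + b), sq_nonneg (‖a‖ - ‖b‖)]

lemma gsq_dv_le {S T : Submodule ℝ E} {w : E → E} (hw : ∀ y, w (T.starProjection y) = w y)
    (hd : Differentiable ℝ w) (y : E) :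
    gsq (dv T w) S.starProjection y ≤
      2 * tilt T S.starProjection + 2 * (Module.finrank ℝ S * ‖fderiv ℝ w y‖ ^ 2) := by
  have h1 := sum_Dw_le (S := S) hw hd y
  unfold gsq tilt
  rw [fderiv_dv hd]
  calc _ ≤ ∑ k, (2 * ‖hgt T (S.starProjection (stdOrthonormalBasis ℝ E k))‖ ^ 2 +
        2 * ‖fderiv ℝ w y (S.starProjection (stdOrthonormalBasis ℝ E k))‖ ^ 2) := by
        refine Finset.sum_le_sum fun k _ => ?_
        rw [ContinuousLinearMap.sub_apply, sub_eq_add_neg, hgtL_apply]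
        refine (sq_add_le _ _).trans ?_
        rw [norm_neg]
    _ = 2 * (∑ k, ‖hgt T (S.starProjection (stdOrthonormalBasis ℝ E k))‖ ^ 2) +
        2 * ∑ k, ‖fderiv ℝ w y (S.starProjection (stdOrthonormalBasis ℝ E k))‖ ^ 2 := by
        rw [Finset.sum_add_distrib, Finset.mul_sum, Finset.mul_sum]
    _ ≤ _ := by linarith

lemma tilt_le_gsq_dv {S T : Submodule ℝ E} {w : E → E} (hw : ∀ y, w (T.starProjection y) = w y)
    (hd : Differentiable ℝ w) (y : E) :
    tilt T S.starProjection ≤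
      2 * gsq (dv T w) S.starProjection y + 2 * (Module.finrank ℝ S * ‖fderiv ℝ w y‖ ^ 2) := by
  have h1 := sum_Dw_le (S := S) hw hd y
  unfold gsq tilt
  rw [fderiv_dv hd]
  calc _ ≤ ∑ k, (2 * ‖(hgtL T - fderiv ℝ w y)
        (S.starProjection (stdOrthonormalBasis ℝ E k))‖ ^ 2 +
        2 * ‖fderiv ℝ w y (S.starProjection (stdOrthonormalBasis ℝ E k))‖ ^ 2) := by
        refine Finset.sum_le_sum fun k _ => ?_
        have h2 := sq_add_le ((hgtL T - fderiv ℝ w y)
          (S.starProjection (stdOrthonormalBasis ℝ E k)))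
          (fderiv ℝ w y (S.starProjection (stdOrthonormalBasis ℝ E k)))
        rwa [ContinuousLinearMap.sub_apply, sub_add_cancel, hgtL_apply] at h2
    _ = 2 * (∑ k, ‖(hgtL T - fderiv ℝ w y)
        (S.starProjection (stdOrthonormalBasis ℝ E k))‖ ^ 2) +
        2 * ∑ k, ‖fderiv ℝ w y (S.starProjection (stdOrthonormalBasis ℝ E k))‖ ^ 2 := by
        rw [Finset.sum_add_distrib, Finset.mul_sum, Finset.mul_sum]
    _ ≤ _ := by linarith

lemma norm_lapP_dv_le {S T : Submodule ℝ E} (hST : Module.finrank ℝ S = Module.finrank ℝ T)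
    {w : E → E} (hw : ∀ y, w (T.starProjection y) = w y) (hd : ContDiff ℝ 2 w) (y : E) :
    ‖lapP (dv T w) S.starProjection y‖ ≤
      ‖lapT T w y‖ + ‖fderiv ℝ (fderiv ℝ w) y‖ * tilt T S.starProjection := by
  rw [lapP_dv hd, norm_neg]
  have h1 := norm_lapP_sub_le hST hw hd y
  have h2 : lapP w S.starProjection y =
      (lapP w S.starProjection y - lapT T w y) + lapT T w y := by abel
  rw [h2]
  exact (norm_add_le _ _).trans (by linarith)

variable [MeasurableSpace E] [BorelSpace E]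
variable {m : ℕ} {T : Submodule ℝ E} {G : Set E} {h : ℝ} {ν : Measure E} {P : E → E →L[ℝ] E}

lemma tilt_eq_gsq (T : Submodule ℝ E) (B : E →L[ℝ] E) (y : E) : tilt T B = gsq (hgt T) B y := by
  unfold tilt gsq
  rw [fderiv_hgt]
  rfl

lemma integrable_tilt (hC : CylStat m T G h ν P) {φ : E → ℝ}
    (hφ : Continuous φ) (hb : BaseCpt T G φ) (s : Set E) (hs : MeasurableSet s) :
    Integrable (fun y => φ y * s.indicator (fun y => tilt T (P y)) y) ν := by
  have := integrable_gsq hC (contDiff_hgt (n := 1) T) hφ hb s hs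
  refine this.congr (Eventually.of_forall fun y => ?_)
  simp only
  congr 1
  by_cases hy : y ∈ s
  · rw [indicator_of_mem hy, indicator_of_mem hy, tilt_eq_gsq]
  · rw [indicator_of_notMem hy, indicator_of_notMem hy]

lemma aesm_tilt (hC : CylStat m T G h ν P) : AEStronglyMeasurable (fun y => tilt T (P y)) ν := by
  have h1 := aesm_gsq hC (contDiff_hgt (n := 1) T)
  refine h1.congr (Eventually.of_forall fun y => ?_)
  exact (tilt_eq_gsq T (P y) y).symm

lemma tilt_le (T : Submodule ℝ E) {B : E →L[ℝ] E} (hB : ‖B‖ ≤ 1) :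
    tilt T B ≤ Module.finrank ℝ E := by
  rw [tilt_eq_gsq T B 0]
  refine (gsq_le _ hB 0).trans ?_
  rw [fderiv_hgt]
  have h1 : ‖hgtL T‖ ≤ 1 := by
    refine ContinuousLinearMap.opNorm_le_bound _ zero_le_one fun x => ?_
    rw [hgtL_apply, hgt_eq, one_mul]
    exact Submodule.norm_starProjection_apply_le _ _
  have h2 : ‖hgtL T‖ ^ 2 ≤ 1 := pow_le_one₀ (norm_nonneg _) h1
  have h3 : (0 : ℝ) ≤ Module.finrank ℝ E := Nat.cast_nonneg _
  nlinarith

/-- **Slab estimate around a sheet**, in terms of the tilt. `lam, del, Lam` bound `|Dw|`, the base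
Laplacian and the second derivative of `w` over the support of the cut-off. -/
theorem slab_sheet (hC : CylStat m T G h ν P) {φ : E → ℝ} (hφ : ContDiff ℝ 1 φ)
    (hb : BaseCpt T G φ) (hφ0 : ∀ y, 0 ≤ φ y) {w : E → E}
    (hw : ∀ y, w (T.starProjection y) = w y) (hd : ContDiff ℝ 2 w) {σ ρ lam del Lam : ℝ}
    (hσ : 0 < σ) (hρ : 4 * σ ≤ ρ)
    (hlam : ∀ y, φ y ≠ 0 ∨ fderiv ℝ φ y ≠ 0 → ‖fderiv ℝ w y‖ ≤ lam)
    (hdel : ∀ y, φ y ≠ 0 → ‖lapT T w y‖ ≤ del)
    (hLam : ∀ y, φ y ≠ 0 → ‖fderiv ℝ (fderiv ℝ w) y‖ ≤ Lam) :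
    ∫ y, φ y * {y | ‖dv T w y‖ ≤ σ}.indicator (fun y => tilt T (P y)) y ∂ν ≤
      6 * σ * ((∫ y, ‖fderiv ℝ φ y‖ * {y | ‖dv T w y‖ ≤ ρ}.indicator
          (fun y => Real.sqrt (2 * tilt T (P y) + 2 * (m * lam ^ 2))) y ∂ν) +
        (∫ y, φ y * {y | ‖dv T w y‖ ≤ ρ}.indicator
          (fun y => del + Lam * tilt T (P y)) y ∂ν) +
        4 / ρ * ∫ y, φ y * {y | ρ / 4 ≤ ‖dv T w y‖ ∧ ‖dv T w y‖ ≤ ρ}.indicator
          (fun y => 2 * tilt T (P y) + 2 * (m * lam ^ 2)) y ∂ν) +
      2 * (m * lam ^ 2) * ∫ y, φ y * {y | ‖dv T w y‖ ≤ σ}.indicator (fun _ => (1 : ℝ)) y ∂ν := by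
  have hρ0 : 0 < ρ := by linarith
  have hdd : Differentiable ℝ w := hd.differentiable (by norm_num)
  have hv : ContDiff ℝ 2 (dv T w) := contDiff_dv hd
  have hv1 : ContDiff ℝ 1 (dv T w) := hv.of_le (by norm_num)
  have hvc : Continuous (dv T w) := hv.continuous
  have m1 : MeasurableSet {y | ‖dv T w y‖ ≤ σ} :=
    (isClosed_le hvc.norm continuous_const).measurableSet
  have m2 : MeasurableSet {y | ‖dv T w y‖ ≤ ρ} :=
    (isClosed_le hvc.norm continuous_const).measurableSet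
  have m3 : MeasurableSet {y | ρ / 4 ≤ ‖dv T w y‖ ∧ ‖dv T w y‖ ≤ ρ} :=
    ((isClosed_le continuous_const hvc.norm).inter
      (isClosed_le hvc.norm continuous_const)).measurableSet
  have key := slab hC hφ hb hφ0 hv hσ hρ
  have hslope : ∀ S : Submodule ℝ E, Module.finrank ℝ S = m → ∀ y,
      (φ y ≠ 0 ∨ fderiv ℝ φ y ≠ 0) →
      gsq (dv T w) S.starProjection y ≤ 2 * tilt T S.starProjection + 2 * (m * lam ^ 2) := by
    intro S hS y hy
    have h1 := gsq_dv_le (S := S) hw hdd y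
    rw [hS] at h1
    have h2 : ‖fderiv ℝ w y‖ ^ 2 ≤ lam ^ 2 := pow_le_pow_left₀ (norm_nonneg _) (hlam y hy) 2
    have h3 : (0 : ℝ) ≤ m := Nat.cast_nonneg _
    nlinarith
  -- integrability of the new terms
  have j1 : Integrable (fun y => ‖fderiv ℝ φ y‖ * {y | ‖dv T w y‖ ≤ ρ}.indicator
      (fun y => Real.sqrt (2 * tilt T (P y) + 2 * (m * lam ^ 2))) y) ν := by
    refine integrable_of_le hC (g := fun y => ‖fderiv ℝ φ y‖ *
      Real.sqrt (2 * Module.finrank ℝ E + 2 * (m * lam ^ 2)))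
      ((hφ.continuous_fderiv (by norm_num)).norm.aestronglyMeasurable.mul
        ((Real.continuous_sqrt.comp_aestronglyMeasurable
          (((aesm_tilt hC).const_mul 2).add_const _)).indicator m2))
      ((hφ.continuous_fderiv (by norm_num)).norm.mul continuous_const)
      ((hb.fderiv).comp_zero fun y hy => by simp [hy]) ?_
    filter_upwards [hC.norm_le] with y hy
    rw [abs_mul, abs_of_nonneg (norm_nonneg _)]
    gcongr
    refine (norm_indicator_le_norm_self (fun y => Real.sqrt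
      (2 * tilt T (P y) + 2 * (m * lam ^ 2))) y).trans ?_
    rw [Real.norm_eq_abs, abs_of_nonneg (Real.sqrt_nonneg _)]
    gcongr
    exact tilt_le T hy
  have j2 : Integrable (fun y => φ y * {y | ‖dv T w y‖ ≤ ρ}.indicator
      (fun y => del + Lam * tilt T (P y)) y) ν := by
    refine integrable_of_le hC (g := fun y => |φ y| * (|del| + |Lam| * Module.finrank ℝ E))
      (hφ.continuous.aestronglyMeasurable.mul
        ((((aesm_tilt hC).const_mul Lam).const_add _).indicator m2))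
      (hφ.continuous.abs.mul continuous_const)
      (hb.comp_zero fun y hy => by simp [hy]) ?_
    filter_upwards [hC.norm_le] with y hy
    rw [abs_mul]
    gcongr
    refine (norm_indicator_le_norm_self (fun y => del + Lam * tilt T (P y)) y).trans ?_
    rw [Real.norm_eq_abs]
    refine (abs_add_le _ _).trans ?_
    rw [abs_mul, abs_of_nonneg (tilt_nonneg _ _)]
    gcongr
    exact tilt_le T hy
  have j3 : Integrable (fun y => φ y *
      {y | ρ / 4 ≤ ‖dv T w y‖ ∧ ‖dv T w y‖ ≤ ρ}.indicator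
      (fun y => 2 * tilt T (P y) + 2 * (m * lam ^ 2)) y) ν := by
    refine integrable_of_le hC (g := fun y => |φ y| *
      (2 * Module.finrank ℝ E + 2 * (m * lam ^ 2)))
      (hφ.continuous.aestronglyMeasurable.mul
        ((((aesm_tilt hC).const_mul 2).add_const _).indicator m3))
      (hφ.continuous.abs.mul continuous_const)
      (hb.comp_zero fun y hy => by simp [hy]) ?_
    filter_upwards [hC.norm_le] with y hy
    rw [abs_mul]
    gcongr
    refine (norm_indicator_le_norm_self (fun y => 2 * tilt T (P y) +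
      2 * (m * lam ^ 2)) y).trans ?_
    rw [Real.norm_eq_abs, abs_of_nonneg (by have := tilt_nonneg T (P y); positivity)]
    gcongr
    exact tilt_le T hy
  have j4 : Integrable (fun y => φ y *
      {y | ‖dv T w y‖ ≤ σ}.indicator (fun _ => (1 : ℝ)) y) ν := by
    refine integrable_of_le hC (g := fun y => |φ y|)
      (hφ.continuous.aestronglyMeasurable.mul
        ((aestronglyMeasurable_const).indicator m1))
      hφ.continuous.abs (hb.comp_zero fun y hy => by simp [hy]) ?_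
    refine Eventually.of_forall fun y => ?_
    rw [abs_mul]
    refine mul_le_of_le_one_right (abs_nonneg _) ?_
    refine (norm_indicator_le_norm_self (fun _ => (1 : ℝ)) y).trans ?_
    simp
  -- comparison of the terms
  have t1 : ∫ y, ‖fderiv ℝ φ y‖ * {y | ‖dv T w y‖ ≤ ρ}.indicator
      (fun y => Real.sqrt (gsq (dv T w) (P y) y)) y ∂ν ≤
      ∫ y, ‖fderiv ℝ φ y‖ * {y | ‖dv T w y‖ ≤ ρ}.indicator
      (fun y => Real.sqrt (2 * tilt T (P y) + 2 * (m * lam ^ 2))) y ∂ν := by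
    refine integral_mono_ae (integrable_grad hC hv1 hφ hb _ m2) j1 ?_
    filter_upwards [hC.proj] with y hy
    obtain ⟨S, hSm, hS⟩ := hy
    by_cases h0 : fderiv ℝ φ y = 0
    · simp [h0]
    · refine mul_le_mul_of_nonneg_left ?_ (norm_nonneg _)
      by_cases h1 : ‖dv T w y‖ ≤ ρ
      · rw [indicator_of_mem (show y ∈ {y | ‖dv T w y‖ ≤ ρ} from h1),
          indicator_of_mem (show y ∈ {y | ‖dv T w y‖ ≤ ρ} from h1), hS]
        exact Real.sqrt_le_sqrt (hslope S hSm y (Or.inr h0))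
      · rw [indicator_of_notMem (show y ∉ {y | ‖dv T w y‖ ≤ ρ} from h1),
          indicator_of_notMem (show y ∉ {y | ‖dv T w y‖ ≤ ρ} from h1)]
  have t2 : ∫ y, φ y * {y | ‖dv T w y‖ ≤ ρ}.indicator
      (fun y => ‖lapP (dv T w) (P y) y‖) y ∂ν ≤
      ∫ y, φ y * {y | ‖dv T w y‖ ≤ ρ}.indicator
      (fun y => del + Lam * tilt T (P y)) y ∂ν := by
    refine integral_mono_ae (integrable_lapP hC hv hφ.continuous hb _ m2) j2 ?_
    filter_upwards [hC.proj] with y hy
    obtain ⟨S, hSm, hS⟩ := hy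
    by_cases h0 : φ y = 0
    · simp [h0]
    · refine mul_le_mul_of_nonneg_left ?_ (hφ0 y)
      by_cases h1 : ‖dv T w y‖ ≤ ρ
      · rw [indicator_of_mem (show y ∈ {y | ‖dv T w y‖ ≤ ρ} from h1),
          indicator_of_mem (show y ∈ {y | ‖dv T w y‖ ≤ ρ} from h1), hS]
        refine (norm_lapP_dv_le (by rw [hSm, hC.dimT]) hw hd y).trans ?_
        have h3 := hdel y h0
        have h4 := hLam y h0
        have h5 := tilt_nonneg T S.starProjection
        nlinarith
      · rw [indicator_of_notMem (show y ∉ {y | ‖dv T w y‖ ≤ ρ} from h1),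
          indicator_of_notMem (show y ∉ {y | ‖dv T w y‖ ≤ ρ} from h1)]
  have t3 : ∫ y, φ y * {y | ρ / 4 ≤ ‖dv T w y‖ ∧ ‖dv T w y‖ ≤ ρ}.indicator
      (fun y => gsq (dv T w) (P y) y) y ∂ν ≤
      ∫ y, φ y * {y | ρ / 4 ≤ ‖dv T w y‖ ∧ ‖dv T w y‖ ≤ ρ}.indicator
      (fun y => 2 * tilt T (P y) + 2 * (m * lam ^ 2)) y ∂ν := by
    refine integral_mono_ae (integrable_gsq hC hv1 hφ.continuous hb _ m3) j3 ?_
    filter_upwards [hC.proj] with y hy
    obtain ⟨S, hSm, hS⟩ := hy
    by_cases h0 : φ y = 0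
    · simp [h0]
    · refine mul_le_mul_of_nonneg_left ?_ (hφ0 y)
      by_cases h1 : ρ / 4 ≤ ‖dv T w y‖ ∧ ‖dv T w y‖ ≤ ρ
      · rw [indicator_of_mem (show y ∈ {y | ρ / 4 ≤ ‖dv T w y‖ ∧ ‖dv T w y‖ ≤ ρ} from h1),
          indicator_of_mem (show y ∈ {y | ρ / 4 ≤ ‖dv T w y‖ ∧ ‖dv T w y‖ ≤ ρ} from h1), hS]
        exact hslope S hSm y (Or.inl h0)
      · rw [indicator_of_notMem (show y ∉ {y | ρ / 4 ≤ ‖dv T w y‖ ∧ ‖dv T w y‖ ≤ ρ} from h1),
          indicator_of_notMem (show y ∉ {y | ρ / 4 ≤ ‖dv T w y‖ ∧ ‖dv T w y‖ ≤ ρ} from h1)]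
  -- left-hand side
  have t0 : ∫ y, φ y * {y | ‖dv T w y‖ ≤ σ}.indicator (fun y => tilt T (P y)) y ∂ν ≤
      2 * (∫ y, φ y * {y | ‖dv T w y‖ ≤ σ}.indicator
        (fun y => gsq (dv T w) (P y) y) y ∂ν) +
      2 * (m * lam ^ 2) * ∫ y, φ y *
        {y | ‖dv T w y‖ ≤ σ}.indicator (fun _ => (1 : ℝ)) y ∂ν := by
    have i0 := integrable_gsq hC hv1 hφ.continuous hb _ m1
    rw [← integral_const_mul, ← integral_const_mul,
      ← integral_add (i0.const_mul 2) (j4.const_mul (2 * (m * lam ^ 2)))]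
    refine integral_mono_ae (integrable_tilt hC hφ.continuous hb _ m1)
      ((i0.const_mul 2).add (j4.const_mul _)) ?_
    filter_upwards [hC.proj] with y hy
    obtain ⟨S, hSm, hS⟩ := hy
    by_cases h0 : φ y = 0
    · simp [h0]
    · have h2 := hφ0 y
      by_cases h1 : ‖dv T w y‖ ≤ σ
      · rw [indicator_of_mem (show y ∈ {y | ‖dv T w y‖ ≤ σ} from h1),
          indicator_of_mem (show y ∈ {y | ‖dv T w y‖ ≤ σ} from h1),
          indicator_of_mem (show y ∈ {y | ‖dv T w y‖ ≤ σ} from h1), hS]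
        have h3 := tilt_le_gsq_dv (S := S) hw hdd y
        rw [hSm] at h3
        have h4 : ‖fderiv ℝ w y‖ ^ 2 ≤ lam ^ 2 :=
          pow_le_pow_left₀ (norm_nonneg _) (hlam y (Or.inl h0)) 2
        have h5 : (0 : ℝ) ≤ m := Nat.cast_nonneg _
        have h6 : tilt T S.starProjection ≤
            2 * gsq (dv T w) S.starProjection y + 2 * (m * lam ^ 2) := by nlinarith
        calc φ y * tilt T S.starProjection ≤
            φ y * (2 * gsq (dv T w) S.starProjection y + 2 * (m * lam ^ 2)) := by gcongr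
          _ = _ := by ring
      · rw [indicator_of_notMem (show y ∉ {y | ‖dv T w y‖ ≤ σ} from h1),
          indicator_of_notMem (show y ∉ {y | ‖dv T w y‖ ≤ σ} from h1),
          indicator_of_notMem (show y ∉ {y | ‖dv T w y‖ ≤ σ} from h1)]
        simp
  have h4ρ : 0 ≤ 4 / ρ := by positivity
  have t3' := mul_le_mul_of_nonneg_left t3 h4ρ
  nlinarith [t0, key, t1, t2, t3', hσ]

end Vale.Agent.P214.SL
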