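import Vale.Agent.P214.SL.Hess
import Mathlib.MeasureTheory.Integral.IntervalIntegral.FundThmCalculus

/-!
# P214, block SL, part 2: the truncated radial function `β(√(σ² + |v|²))`.
-/

open Set Filter Topology MeasureTheory Metric
open scoped RealInnerProductSpace

set_option linter.all false

namespace Vale.Agent.P214.SL

open Vale.Agent.P214.FV

/-! ### The one-dimensional cut-off -/

/-- positive part -/
noncomputable def pp (s : ℝ) : ℝ := max s 0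

/-- cut-off: `1` for `s ≤ ρ/2`, `0` for `ρ ≤ s` -/
noncomputable def chi (ρ s : ℝ) : ℝ := prof ((pp (s - ρ / 2) / (ρ / 2)) ^ 2)

noncomputable def dchi (ρ s : ℝ) : ℝ :=
  -(dprof ((pp (s - ρ / 2) / (ρ / 2)) ^ 2) * (2 * pp (s - ρ / 2) / (ρ / 2) ^ 2))

lemma hasDerivAt_pp_sq (s : ℝ) : HasDerivAt (fun s => (pp s) ^ 2) (2 * pp s) s := by
  have h1 := hasDerivAt_prof (1 - s)
  have h2 : HasDerivAt (fun s : ℝ => 1 - s) (-1) s := by
    simpa using (hasDerivAt_id s).const_sub 1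
  have h3 := h1.comp s h2
  have h4 : (prof ∘ fun s => 1 - s) = fun s => (pp s) ^ 2 := by
    funext s
    simp [prof, pp, Function.comp]
  rw [h4] at h3
  refine h3.congr_deriv ?_
  simp [dprof, pp]

lemma continuous_pp : Continuous pp := continuous_id.max continuous_const

lemma pp_nonneg (s : ℝ) : 0 ≤ pp s := le_max_right _ _

lemma hasDerivAt_chi {ρ : ℝ} (hρ : 0 < ρ) (s : ℝ) : HasDerivAt (chi ρ) (dchi ρ s) s := by
  have h1 : HasDerivAt (fun s => (pp (s - ρ / 2)) ^ 2) (2 * pp (s - ρ / 2)) s := by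
    have h2 : HasDerivAt (fun s : ℝ => s - ρ / 2) 1 s := (hasDerivAt_id s).sub_const _
    have := (hasDerivAt_pp_sq (s - ρ / 2)).comp s h2
    rw [mul_one] at this
    exact this
  have h3 : HasDerivAt (fun s => (pp (s - ρ / 2) / (ρ / 2)) ^ 2)
      (2 * pp (s - ρ / 2) / (ρ / 2) ^ 2) s := by
    have := h1.div_const ((ρ / 2) ^ 2)
    refine this.congr_of_eventuallyEq (Eventually.of_forall fun s => ?_)
    simp only
    rw [div_pow]
  have h4 := (hasDerivAt_prof ((pp (s - ρ / 2) / (ρ / 2)) ^ 2)).comp s h3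
  refine h4.congr_deriv ?_
  unfold dchi
  ring

lemma continuous_dchi (ρ : ℝ) : Continuous (dchi ρ) := by
  unfold dchi
  have h1 : Continuous fun s => pp (s - ρ / 2) := continuous_pp.comp (continuous_id.sub continuous_const)
  exact ((continuous_dprof.comp ((h1.div_const _).pow 2)).mul
    ((continuous_const.mul h1).div_const _)).neg

lemma continuous_chi (ρ : ℝ) : Continuous (chi ρ) := by
  unfold chi
  have h1 : Continuous fun s => pp (s - ρ / 2) := continuous_pp.comp (continuous_id.sub continuous_const)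
  exact continuous_prof.comp ((h1.div_const _).pow 2)

lemma chi_nonneg (ρ s : ℝ) : 0 ≤ chi ρ s := prof_nonneg _

lemma chi_le_one (ρ s : ℝ) : chi ρ s ≤ 1 := prof_le_one (sq_nonneg _)

lemma chi_of_le {ρ s : ℝ} (h : s ≤ ρ / 2) : chi ρ s = 1 := by
  have : pp (s - ρ / 2) = 0 := max_eq_right (by linarith)
  simp [chi, this, prof]

lemma chi_of_ge {ρ s : ℝ} (hρ : 0 < ρ) (h : ρ ≤ s) : chi ρ s = 0 := by
  refine prof_of_one_le ?_
  have h1 : pp (s - ρ / 2) = s - ρ / 2 := max_eq_left (by linarith)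
  have h2 : 1 ≤ (s - ρ / 2) / (ρ / 2) := by
    rw [le_div_iff₀ (by positivity)]
    linarith
  rw [h1]
  nlinarith

lemma dchi_of_le {ρ s : ℝ} (h : s ≤ ρ / 2) : dchi ρ s = 0 := by
  have : pp (s - ρ / 2) = 0 := max_eq_right (by linarith)
  simp [dchi, this]

lemma dchi_of_ge {ρ s : ℝ} (hρ : 0 < ρ) (h : ρ ≤ s) : dchi ρ s = 0 := by
  have h0 : dprof ((pp (s - ρ / 2) / (ρ / 2)) ^ 2) = 0 := by
    refine dprof_of_one_le ?_
    have h1 : pp (s - ρ / 2) = s - ρ / 2 := max_eq_left (by linarith)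
    have h2 : 1 ≤ (s - ρ / 2) / (ρ / 2) := by
      rw [le_div_iff₀ (by positivity)]
      linarith
    rw [h1]
    nlinarith
  simp [dchi, h0]

lemma abs_dchi_le {ρ : ℝ} (hρ : 0 < ρ) (s : ℝ) : |dchi ρ s| ≤ 4 / ρ := by
  set u := pp (s - ρ / 2) / (ρ / 2) with hu
  have hu0 : 0 ≤ u := div_nonneg (pp_nonneg _) (by positivity)
  have h1 : dchi ρ s = -(dprof (u ^ 2) * u * (4 / ρ)) := by
    unfold dchi
    rw [← hu]
    have : 2 * pp (s - ρ / 2) / (ρ / 2) ^ 2 = u * (4 / ρ) := by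
      rw [hu]
      field_simp
      ring
    rw [this]
    ring
  rw [h1, abs_neg, abs_of_nonneg (by
    have := dprof_nonneg (u ^ 2)
    positivity)]
  have h2 : dprof (u ^ 2) * u ≤ 1 := by
    rcases le_or_gt 1 u with h | h
    · have h3 : dprof (u ^ 2) = 0 := dprof_of_one_le (by nlinarith)
      rw [h3]
      norm_num
    · have h3 : dprof (u ^ 2) = 2 * (1 - u ^ 2) := by
        unfold dprof
        rw [max_eq_left (by nlinarith)]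
      rw [h3]
      nlinarith [sq_nonneg (u - 1 / 2), sq_nonneg (u - 3 / 5), mul_nonneg hu0 (sq_nonneg (u - 3 / 5))]
  calc dprof (u ^ 2) * u * (4 / ρ) ≤ 1 * (4 / ρ) := by gcongr
    _ = 4 / ρ := one_mul _

/-- primitive of the cut-off -/
noncomputable def beta (ρ s : ℝ) : ℝ := ∫ τ in (0 : ℝ)..s, chi ρ τ

lemma hasDerivAt_beta (ρ s : ℝ) : HasDerivAt (beta ρ) (chi ρ s) s :=
  intervalIntegral.integral_hasDerivAt_right ((continuous_chi ρ).intervalIntegrable _ _)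
    ((continuous_chi ρ).stronglyMeasurableAtFilter _ _) (continuous_chi ρ).continuousAt

lemma contDiff_chi {ρ : ℝ} (hρ : 0 < ρ) : ContDiff ℝ 1 (chi ρ) := by
  rw [contDiff_one_iff_deriv]
  refine ⟨fun s => (hasDerivAt_chi hρ s).differentiableAt, ?_⟩
  have : deriv (chi ρ) = dchi ρ := funext fun s => (hasDerivAt_chi hρ s).deriv
  rw [this]
  exact continuous_dchi ρ

lemma contDiff_beta {ρ : ℝ} (hρ : 0 < ρ) : ContDiff ℝ 2 (beta ρ) := by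
  have h : deriv (beta ρ) = chi ρ := funext fun s => (hasDerivAt_beta ρ s).deriv
  rw [show (2 : WithTop ℕ∞) = 1 + 1 by norm_num, contDiff_succ_iff_deriv]
  refine ⟨fun s => (hasDerivAt_beta ρ s).differentiableAt, by simp, ?_⟩
  rw [h]
  exact contDiff_chi hρ

/-! ### The radial function -/

variable {E' : Type*} [NormedAddCommGroup E'] [InnerProductSpace ℝ E']

/-- `√(σ² + |v|²)` -/
noncomputable def rad (σ : ℝ) (v : E') : ℝ := Real.sqrt (σ ^ 2 + ‖v‖ ^ 2)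

section rad

variable {σ ρ : ℝ} {v z u : E'}

lemma rad_pos (hσ : 0 < σ) (v : E') : 0 < rad σ v := Real.sqrt_pos.2 (by positivity)

lemma rad_sq (hσ : 0 < σ) (v : E') : rad σ v ^ 2 = σ ^ 2 + ‖v‖ ^ 2 := Real.sq_sqrt (by positivity)

lemma norm_le_rad (hσ : 0 < σ) (v : E') : ‖v‖ ≤ rad σ v := by
  have h1 := rad_sq hσ v
  have h2 := rad_pos hσ v
  nlinarith [norm_nonneg v, sq_nonneg σ]

lemma sigma_le_rad (hσ : 0 < σ) (v : E') : σ ≤ rad σ v := by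
  have h1 := rad_sq hσ v
  have h2 := rad_pos hσ v
  nlinarith [norm_nonneg v, sq_nonneg ‖v‖]

lemma contDiff_rad (hσ : 0 < σ) : ContDiff ℝ 2 (rad σ : E' → ℝ) := by
  unfold rad
  refine ContDiff.sqrt (contDiff_const.add (contDiff_norm_sq ℝ)) fun v => ?_
  positivity

lemma hasFDerivAt_rad (hσ : 0 < σ) (v : E') :
    HasFDerivAt (rad σ : E' → ℝ) ((rad σ v)⁻¹ • innerSL ℝ v) v := by
  have h1 : HasFDerivAt (fun v : E' => σ ^ 2 + ‖v‖ ^ 2) ((2 : ℝ) • innerSL ℝ v) v := by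
    have h2 : HasFDerivAt (fun v : E' => ‖v‖ ^ 2) ((2 : ℝ) • innerSL ℝ v) v := by
      refine (hasStrictFDerivAt_norm_sq v).hasFDerivAt.congr_fderiv ?_
      rw [← Nat.cast_smul_eq_nsmul ℝ 2]
      norm_num
    exact h2.const_add _
  have h3 := h1.sqrt (by positivity)
  refine h3.congr_fderiv ?_
  rw [smul_smul]
  congr 1
  unfold rad
  field_simp

/-- the truncated radial function -/
noncomputable def Th (ρ σ : ℝ) (v : E') : ℝ := beta ρ (rad σ v)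

lemma contDiff_Th (hσ : 0 < σ) (hρ : 0 < ρ) : ContDiff ℝ 2 (Th ρ σ : E' → ℝ) :=
  (contDiff_beta hρ).comp (contDiff_rad hσ)

lemma fderiv_Th (hσ : 0 < σ) (v : E') :
    fderiv ℝ (Th ρ σ : E' → ℝ) v = (chi ρ (rad σ v) * (rad σ v)⁻¹) • innerSL ℝ v := by
  have h1 := (hasDerivAt_beta ρ (rad σ v)).comp_hasFDerivAt v (hasFDerivAt_rad hσ v)
  have h2 : fderiv ℝ (Th ρ σ : E' → ℝ) v = chi ρ (rad σ v) • ((rad σ v)⁻¹ • innerSL ℝ v) :=
    h1.fderiv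
  rw [h2, smul_smul]

lemma abs_fderiv_Th_le (hσ : 0 < σ) (v z : E') :
    |fderiv ℝ (Th ρ σ : E' → ℝ) v z| ≤ chi ρ (rad σ v) * ‖z‖ := by
  rw [fderiv_Th hσ]
  have hr := rad_pos hσ v
  have h0 := chi_nonneg ρ (rad σ v)
  rw [ContinuousLinearMap.smul_apply, innerSL_apply_apply, smul_eq_mul, abs_mul, abs_mul, abs_of_nonneg h0,
    abs_of_pos (inv_pos.2 hr)]
  have h1 : |⟪v, z⟫| ≤ rad σ v * ‖z‖ :=
    (abs_real_inner_le_norm v z).trans (by gcongr; exact norm_le_rad hσ v)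
  calc chi ρ (rad σ v) * (rad σ v)⁻¹ * |⟪v, z⟫|
      ≤ chi ρ (rad σ v) * (rad σ v)⁻¹ * (rad σ v * ‖z‖) := by gcongr
    _ = chi ρ (rad σ v) * ‖z‖ := by
        field_simp

lemma fderiv2_Th (hσ : 0 < σ) (hρ : 0 < ρ) (v u z : E') :
    fderiv ℝ (fderiv ℝ (Th ρ σ : E' → ℝ)) v u z =
      chi ρ (rad σ v) * (⟪u, z⟫ * (rad σ v)⁻¹ - ⟪v, u⟫ * ⟪v, z⟫ * ((rad σ v)⁻¹) ^ 3) +
        dchi ρ (rad σ v) * (⟪v, u⟫ * ⟪v, z⟫ * ((rad σ v)⁻¹) ^ 2) := by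
  have hr := rad_pos hσ v
  have h0 : fderiv ℝ (Th ρ σ : E' → ℝ) =
      fun v => (chi ρ (rad σ v) * (rad σ v)⁻¹) • innerSL ℝ v := funext fun v => fderiv_Th hσ v
  have h1 : HasDerivAt (fun s => chi ρ s * s⁻¹)
      (dchi ρ (rad σ v) * (rad σ v)⁻¹ + chi ρ (rad σ v) * (-((rad σ v) ^ 2)⁻¹)) (rad σ v) :=
    (hasDerivAt_chi hρ _).mul (hasDerivAt_inv hr.ne')
  have h2 := h1.comp_hasFDerivAt v (hasFDerivAt_rad hσ v)
  have h3 : HasFDerivAt (fun v : E' => innerSL ℝ v) (innerSL ℝ : E' →L[ℝ] E' →L[ℝ] ℝ) v :=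
    (innerSL ℝ : E' →L[ℝ] E' →L[ℝ] ℝ).hasFDerivAt
  have h4 := (h2.smul h3).fderiv
  rw [h0]
  have h5 : fderiv ℝ (fun v => (chi ρ (rad σ v) * (rad σ v)⁻¹) • innerSL ℝ v) v = _ := h4
  rw [h5]
  simp only [ContinuousLinearMap.add_apply, ContinuousLinearMap.smul_apply,
    ContinuousLinearMap.smulRight_apply, Function.comp, smul_eq_mul, innerSL_apply_apply]
  have h6 : (innerSL ℝ u) z = ⟪u, z⟫ := rfl
  rw [h6]
  field_simp
  ring

lemma fderiv2_Th_ge (hσ : 0 < σ) (hρ : 0 < ρ) (v z : E') :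
    chi ρ (rad σ v) * σ ^ 2 * ((rad σ v)⁻¹) ^ 3 * ‖z‖ ^ 2 - |dchi ρ (rad σ v)| * ‖z‖ ^ 2 ≤
      fderiv ℝ (fderiv ℝ (Th ρ σ : E' → ℝ)) v z z := by
  rw [fderiv2_Th hσ hρ]
  have hr := rad_pos hσ v
  set r := rad σ v
  have h0 := chi_nonneg ρ r
  have hsq : r ^ 2 = σ ^ 2 + ‖v‖ ^ 2 := rad_sq hσ v
  have hcs : ⟪v, z⟫ * ⟪v, z⟫ ≤ ‖v‖ ^ 2 * ‖z‖ ^ 2 := by
    have := abs_real_inner_le_norm v z
    have h2 := abs_mul_abs_self ⟪v, z⟫
    nlinarith [abs_nonneg ⟪v, z⟫, norm_nonneg v, norm_nonneg z]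
  have h1 : σ ^ 2 * (r⁻¹) ^ 3 * ‖z‖ ^ 2 ≤
      ⟪z, z⟫ * r⁻¹ - ⟪v, z⟫ * ⟪v, z⟫ * (r⁻¹) ^ 3 := by
    rw [real_inner_self_eq_norm_sq]
    have h3 : ‖z‖ ^ 2 * r⁻¹ = ‖z‖ ^ 2 * (σ ^ 2 + ‖v‖ ^ 2) * (r⁻¹) ^ 3 := by
      rw [← hsq]
      field_simp
    rw [h3]
    have h4 : 0 ≤ (r⁻¹) ^ 3 := by positivity
    nlinarith [mul_le_mul_of_nonneg_right hcs h4]
  have h2 : -(|dchi ρ r| * ‖z‖ ^ 2) ≤ dchi ρ r * (⟪v, z⟫ * ⟪v, z⟫ * (r⁻¹) ^ 2) := by
    have h5 : ⟪v, z⟫ * ⟪v, z⟫ * (r⁻¹) ^ 2 ≤ ‖z‖ ^ 2 := by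
      have h6 : ‖v‖ ^ 2 * (r⁻¹) ^ 2 ≤ 1 := by
        rw [← mul_pow]
        have h7 : ‖v‖ * r⁻¹ ≤ 1 := by
          rw [← div_eq_mul_inv, div_le_one hr]
          exact norm_le_rad hσ v
        exact pow_le_one₀ (by positivity) h7
      calc ⟪v, z⟫ * ⟪v, z⟫ * (r⁻¹) ^ 2 ≤ ‖v‖ ^ 2 * ‖z‖ ^ 2 * (r⁻¹) ^ 2 := by gcongr
        _ = (‖v‖ ^ 2 * (r⁻¹) ^ 2) * ‖z‖ ^ 2 := by ring
        _ ≤ 1 * ‖z‖ ^ 2 := by gcongr
        _ = ‖z‖ ^ 2 := one_mul _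
    have h6 : 0 ≤ ⟪v, z⟫ * ⟪v, z⟫ * (r⁻¹) ^ 2 := mul_nonneg (mul_self_nonneg _) (by positivity)
    have h7 := neg_abs_le (dchi ρ r)
    have h8 := abs_nonneg (dchi ρ r)
    nlinarith [mul_le_mul_of_nonneg_left h5 h8, mul_le_mul_of_nonneg_right h7 h6]
  nlinarith [mul_le_mul_of_nonneg_left h1 h0]

end rad

end Vale.Agent.P214.SL
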