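import Vale.Agent.P214.SL.Slab

/-!
# P214, block SL, part 4: the slab estimate around a sheet `height = w(base)`.
-/

open Set Filter Topology MeasureTheory Metric
open scoped RealInnerProductSpace

set_option linter.all false

namespace Vale.Agent.P214.SL

open Vale.Agent.P214.FV

variable {E : Type*} [NormedAddCommGroup E] [InnerProductSpace ℝ E] [FiniteDimensional ℝ E]
variable {F : Type*} [NormedAddCommGroup F] [NormedSpace ℝ F]

/-- height over the base plane -/
noncomputable def hgt (T : Submodule ℝ E) (y : E) : E := y - T.starProjection y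

/-- the tilt density `tr (P_S P_{T^⊥})` -/
noncomputable def tilt (T : Submodule ℝ E) (B : E →L[ℝ] E) : ℝ :=
  ∑ k, ‖hgt T (B (stdOrthonormalBasis ℝ E k))‖ ^ 2

lemma tilt_nonneg (T : Submodule ℝ E) (B : E →L[ℝ] E) : 0 ≤ tilt T B :=
  Finset.sum_nonneg fun _ _ => sq_nonneg _

/-- height as a continuous linear map -/
noncomputable def hgtL (T : Submodule ℝ E) : E →L[ℝ] E :=
  ContinuousLinearMap.id ℝ E - T.starProjection

lemma hgtL_apply (T : Submodule ℝ E) (y : E) : hgtL T y = hgt T y := rfl

lemma hgt_eq (T : Submodule ℝ E) (y : E) : hgt T y = Tᗮ.starProjection y := by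
  rw [hgt, Submodule.starProjection_orthogonal_val]

lemma contDiff_hgt {n : WithTop ℕ∞} (T : Submodule ℝ E) : ContDiff ℝ n (hgt T) :=
  (hgtL T).contDiff

lemma fderiv_hgt (T : Submodule ℝ E) (y : E) : fderiv ℝ (hgt T) y = hgtL T :=
  (hgtL T).fderiv

/-! ### traces of bilinear maps -/

/-- sliding an operator through the trace -/
lemma sum_slide (M : E →L[ℝ] E →L[ℝ] F) (A C : E →L[ℝ] E) :
    ∑ k, M (A (C (stdOrthonormalBasis ℝ E k))) (stdOrthonormalBasis ℝ E k) =
      ∑ k, M (A (stdOrthonormalBasis ℝ E k)) (C.adjoint (stdOrthonormalBasis ℝ E k)) := by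
  set b := stdOrthonormalBasis ℝ E
  have h1 : ∀ k, M (A (C (b k))) (b k) = ∑ j, ⟪b j, C (b k)⟫ • M (A (b j)) (b k) := by
    intro k
    conv_lhs => rw [← b.sum_repr' (C (b k))]
    simp only [map_sum, map_smul, ContinuousLinearMap.sum_apply, ContinuousLinearMap.smul_apply]
  have h2 : ∀ j, M (A (b j)) (C.adjoint (b j)) = ∑ k, ⟪b j, C (b k)⟫ • M (A (b j)) (b k) := by
    intro j
    conv_lhs => rw [← b.sum_repr' (C.adjoint (b j))]
    rw [map_sum]
    refine Finset.sum_congr rfl fun k _ => ?_
    rw [map_smul, ContinuousLinearMap.adjoint_inner_right, real_inner_comm]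
  simp only [h1, h2]
  exact Finset.sum_comm

lemma adjoint_starProjection (S : Submodule ℝ E) :
    S.starProjection.adjoint = S.starProjection := by
  refine (ContinuousLinearMap.eq_adjoint_iff _ _).2 (fun x y => ?_) |>.symm
  exact Submodule.inner_starProjection_left_eq_right S x y

/-- Hilbert–Schmidt norm as a trace -/
lemma sum_norm_sq_eq_tr (A : E →L[ℝ] E) :
    ∑ k, ‖A (stdOrthonormalBasis ℝ E k)‖ ^ 2 = tr (A.adjoint.comp A) := by
  rw [tr_eq_sum (stdOrthonormalBasis ℝ E)]
  refine Finset.sum_congr rfl fun k _ => ?_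
  rw [ContinuousLinearMap.comp_apply, ContinuousLinearMap.adjoint_inner_right,
    real_inner_self_eq_norm_sq]

/-- the sum of squares of a rank `m` projection applied to an orthonormal basis -/
lemma sum_norm_proj (S : Submodule ℝ E) :
    ∑ k, ‖S.starProjection (stdOrthonormalBasis ℝ E k)‖ ^ 2 = Module.finrank ℝ S := by
  rw [← tr_starProjection S, tr_eq_sum (stdOrthonormalBasis ℝ E)]
  refine Finset.sum_congr rfl fun k _ => ?_
  rw [← real_inner_self_eq_norm_sq, Submodule.inner_starProjection_left_eq_right]
  congr 1
  exact (Submodule.starProjection_eq_self_iff).2 (S.starProjection_apply_mem _)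

/-- Hilbert–Schmidt norm of the adjoint -/
lemma sum_norm_adjoint (A : E →L[ℝ] E) :
    ∑ k, ‖A.adjoint (stdOrthonormalBasis ℝ E k)‖ ^ 2 = ∑ k, ‖A (stdOrthonormalBasis ℝ E k)‖ ^ 2 := by
  set b := stdOrthonormalBasis ℝ E
  have h1 : ∀ k, ‖A.adjoint (b k)‖ ^ 2 = ∑ j, ⟪b j, A.adjoint (b k)⟫ ^ 2 := by
    intro k
    rw [← b.sum_sq_norm_inner_right]
    simp only [Real.norm_eq_abs, sq_abs]
  have h2 : ∀ k, ‖A (b k)‖ ^ 2 = ∑ j, ⟪b j, A (b k)⟫ ^ 2 := by
    intro k
    rw [← b.sum_sq_norm_inner_right]
    simp only [Real.norm_eq_abs, sq_abs]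
  simp only [h1, h2]
  rw [Finset.sum_comm]
  refine Finset.sum_congr rfl fun j _ => Finset.sum_congr rfl fun k _ => ?_
  rw [ContinuousLinearMap.adjoint_inner_right, real_inner_comm]

/-- symmetry of the tilt: `|(1 - T) S|² = |(1 - S) T|²` for planes of the same dimension. -/
lemma tilt_symm {S T : Submodule ℝ E} (h : Module.finrank ℝ S = Module.finrank ℝ T) :
    tilt T S.starProjection = tilt S T.starProjection := by
  set b := stdOrthonormalBasis ℝ E
  have key : ∀ S T : Submodule ℝ E, tilt T S.starProjection =
      Module.finrank ℝ S - tr (S.starProjection.comp T.starProjection) := by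
    intro S T
    have h1 : ∀ k, ‖hgt T (S.starProjection (b k))‖ ^ 2 =
        ‖S.starProjection (b k)‖ ^ 2 - ‖T.starProjection (S.starProjection (b k))‖ ^ 2 := by
      intro k
      have h2 := T.norm_sq_eq_add_norm_sq_starProjection (S.starProjection (b k))
      rw [hgt_eq]
      linarith
    have h0 : tilt T S.starProjection = ∑ k, ‖hgt T (S.starProjection (b k))‖ ^ 2 := rfl
    rw [h0]
    simp only [h1]
    rw [Finset.sum_sub_distrib, sum_norm_proj]
    congr 1
    have h3 : ∑ k, ‖T.starProjection (S.starProjection (b k))‖ ^ 2 =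
        ∑ k, ‖(T.starProjection.comp S.starProjection) (b k)‖ ^ 2 := rfl
    have hSS : S.starProjection.comp S.starProjection = S.starProjection := by
      ext z
      exact (Submodule.starProjection_eq_self_iff).2 (S.starProjection_apply_mem _)
    have hTT : T.starProjection.comp T.starProjection = T.starProjection := by
      ext z
      exact (Submodule.starProjection_eq_self_iff).2 (T.starProjection_apply_mem _)
    rw [h3, sum_norm_sq_eq_tr, ContinuousLinearMap.adjoint_comp, adjoint_starProjection,
      adjoint_starProjection]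
    rw [ContinuousLinearMap.comp_assoc, ← ContinuousLinearMap.comp_assoc T.starProjection, hTT,
      tr_comp_comm, ContinuousLinearMap.comp_assoc, hSS, tr_comp_comm]
  rw [key S T, key T S, h, tr_comp_comm]

/-! ### the Laplacian along the plane of a function of the base point -/

variable {E' : Type*} [NormedAddCommGroup E'] [InnerProductSpace ℝ E']

/-- a function of the base point has derivatives depending on the base components only -/
lemma fderiv_base {T : Submodule ℝ E} {w : E → F} (hw : ∀ y, w (T.starProjection y) = w y)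
    (hd : Differentiable ℝ w) (y u : E) :
    fderiv ℝ w y (T.starProjection u) = fderiv ℝ w y u ∧
      fderiv ℝ w (T.starProjection y) u = fderiv ℝ w y u := by
  have hTT : ∀ z, T.starProjection (T.starProjection z) = T.starProjection z := fun z =>
    (Submodule.starProjection_eq_self_iff).2 (T.starProjection_apply_mem _)
  have h1 : ∀ y u, fderiv ℝ w y u = fderiv ℝ w (T.starProjection y) (T.starProjection u) := by
    intro y u
    have h2 : w = w ∘ T.starProjection := by
      funext z
      exact (hw z).symm
    have h3 : fderiv ℝ (w ∘ T.starProjection) y =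
        (fderiv ℝ w (T.starProjection y)).comp T.starProjection :=
      (((hd (T.starProjection y)).hasFDerivAt).comp y (T.starProjection.hasFDerivAt)).fderiv
    conv_lhs => rw [h2]
    rw [h3]
    rfl
  refine ⟨?_, ?_⟩
  · rw [h1, h1 y u, hTT]
  · rw [h1 (T.starProjection y) u, h1 y u, hTT]

lemma fderiv2_base {T : Submodule ℝ E} {w : E → F} (hw : ∀ y, w (T.starProjection y) = w y)
    (hd : ContDiff ℝ 2 w) (y u z : E) :
    fderiv ℝ (fderiv ℝ w) y (T.starProjection u) (T.starProjection z) =
      fderiv ℝ (fderiv ℝ w) y u z := by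
  have hd1 : ContDiff ℝ 1 (fderiv ℝ w) := hd.fderiv_right (by norm_num)
  have h1 := fun y => fderiv_base hw (hd.differentiable (by norm_num)) y
  have h2 : ∀ y, fderiv ℝ w (T.starProjection y) = fderiv ℝ w y := by
    intro y
    ext u
    exact (h1 y u).2
  rw [(fderiv_base h2 (hd1.differentiable (by norm_num)) y u).1]
  -- constant in the second variable
  have h3 : HasFDerivAt (fun y => fderiv ℝ w y (T.starProjection z))
      (((ContinuousLinearMap.apply ℝ F (T.starProjection z))).comp
        (fderiv ℝ (fderiv ℝ w) y)) y :=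
    (ContinuousLinearMap.apply ℝ F (T.starProjection z)).hasFDerivAt.comp y
      (hd1.differentiable (by norm_num) y).hasFDerivAt
  have h4 : HasFDerivAt (fun y => fderiv ℝ w y z)
      (((ContinuousLinearMap.apply ℝ F z)).comp (fderiv ℝ (fderiv ℝ w) y)) y :=
    (ContinuousLinearMap.apply ℝ F z).hasFDerivAt.comp y
      (hd1.differentiable (by norm_num) y).hasFDerivAt
  have h5 : (fun y => fderiv ℝ w y (T.starProjection z)) = fun y => fderiv ℝ w y z := by
    funext y
    exact (h1 y z).1
  rw [h5] at h3
  have h6 := h3.unique h4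
  have h7 := congrArg (fun L => L u) h6
  simpa using h7

/-- the Laplacian of `w` in the base directions -/
noncomputable def lapT (T : Submodule ℝ E) (w : E → F) (y : E) : F :=
  ∑ k, fderiv ℝ (fderiv ℝ w) y (T.starProjection (stdOrthonormalBasis ℝ E k))
    (T.starProjection (stdOrthonormalBasis ℝ E k))

/-- **The Laplacian along the plane versus the Laplacian in the base.** -/
lemma norm_lapP_sub_le {S T : Submodule ℝ E} (hST : Module.finrank ℝ S = Module.finrank ℝ T)
    {w : E → E'} (hw : ∀ y, w (T.starProjection y) = w y) (hd : ContDiff ℝ 2 w) (y : E) :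
    ‖lapP w S.starProjection y - lapT T w y‖ ≤
      ‖fderiv ℝ (fderiv ℝ w) y‖ * tilt T S.starProjection := by
  set b := stdOrthonormalBasis ℝ E
  set M := fderiv ℝ (fderiv ℝ w) y with hM
  have hb2 : ∀ u z, M (T.starProjection u) (T.starProjection z) = M u z := fun u z =>
    fderiv2_base hw hd y u z
  have hSS : ∀ z, S.starProjection (S.starProjection z) = S.starProjection z := fun z =>
    (Submodule.starProjection_eq_self_iff).2 (S.starProjection_apply_mem _)
  have hTT : ∀ z, T.starProjection (T.starProjection z) = T.starProjection z := fun z =>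
    (Submodule.starProjection_eq_self_iff).2 (T.starProjection_apply_mem _)
  -- the operator `C = (1 - S) T`
  set C : E →L[ℝ] E := (hgtL S).comp T.starProjection with hC
  have hadjS : (hgtL S).adjoint = hgtL S := by
    refine (ContinuousLinearMap.eq_adjoint_iff _ _).2 (fun x y => ?_) |>.symm
    simp only [hgtL_apply, hgt_eq]
    exact Submodule.inner_starProjection_left_eq_right Sᗮ x y
  have hCadj : C.adjoint = T.starProjection.comp (hgtL S) := by
    rw [hC, ContinuousLinearMap.adjoint_comp, adjoint_starProjection, hadjS]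
  have hidem : ∀ z, hgtL S (hgtL S z) = hgtL S z := by
    intro z
    simp only [hgtL_apply, hgt_eq]
    exact (Submodule.starProjection_eq_self_iff).2 (Sᗮ.starProjection_apply_mem _)
  -- the difference of the two traces
  have h1 : lapT T w y - lapP w S.starProjection y =
      ∑ k, M (C.adjoint (b k)) (C.adjoint (b k)) := by
    have e1 : lapT T w y = ∑ k, M (T.starProjection (b k)) (b k) := (sum_proj M T).symm
    have e2 : lapP w S.starProjection y = ∑ k, M (S.starProjection (b k)) (b k) :=
      (sum_proj M S).symm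
    have e3 : ∀ A : E →L[ℝ] E, ∑ k, M (A (b k)) (b k) =
        ∑ k, M (T.starProjection (A (T.starProjection (b k)))) (b k) := by
      intro A
      have f1 : ∀ k, M (A (b k)) (b k) =
          M (T.starProjection (A (b k))) (T.starProjection.adjoint (b k)) := by
        intro k
        rw [adjoint_starProjection, hb2]
      rw [Finset.sum_congr rfl fun k _ => f1 k]
      exact (sum_slide M (T.starProjection.comp A) T.starProjection).symm
    have e4 : ∑ k, M (C.adjoint (b k)) (C.adjoint (b k)) =
        ∑ k, M (C.adjoint (C (b k))) (b k) := (sum_slide M C.adjoint C).symm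
    rw [e4, e1, e2, e3 T.starProjection, e3 S.starProjection, ← Finset.sum_sub_distrib]
    refine Finset.sum_congr rfl fun k _ => ?_
    rw [← ContinuousLinearMap.sub_apply, ← map_sub]
    congr 2
    rw [hCadj, hC]
    simp only [ContinuousLinearMap.comp_apply, hidem, hTT]
    rw [hgtL_apply, hgt, map_sub, hTT]
  rw [← norm_neg, neg_sub, h1]
  calc ‖∑ k, M (C.adjoint (b k)) (C.adjoint (b k))‖
      ≤ ∑ k, ‖M‖ * ‖C.adjoint (b k)‖ ^ 2 := by
        refine (norm_sum_le _ _).trans (Finset.sum_le_sum fun k _ => ?_)
        refine (M.le_opNorm₂ _ _).trans (le_of_eq ?_)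
        ring
    _ = ‖M‖ * tilt T S.starProjection := by
        rw [← Finset.mul_sum, sum_norm_adjoint, tilt_symm hST]
        rfl

end Vale.Agent.P214.SL
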