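import Vale.Agent.P214.SL.Radial

/-!
# P214, block SL, part 3: the slab estimate.
-/

open Set Filter Topology MeasureTheory Metric
open scoped RealInnerProductSpace

set_option linter.all false

namespace Vale.Agent.P214.SL

open Vale.Agent.P214.FV

variable {E : Type*} [NormedAddCommGroup E] [InnerProductSpace ℝ E] [FiniteDimensional ℝ E]
variable {E' : Type*} [NormedAddCommGroup E'] [InnerProductSpace ℝ E']

lemma norm_sq_comp_le (v : E → E') (B : E →L[ℝ] E) (y z : E) :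
    ‖fderiv ℝ v y (B z)‖ ≤ Real.sqrt (gsq v B y) * ‖z‖ := by
  set b := stdOrthonormalBasis ℝ E
  have h1 : fderiv ℝ v y (B z) = ∑ k, ⟪b k, z⟫ • fderiv ℝ v y (B (b k)) := by
    conv_lhs => rw [← b.sum_repr' z]
    simp only [map_sum, map_smul]
  rw [h1]
  calc ‖∑ k, ⟪b k, z⟫ • fderiv ℝ v y (B (b k))‖
      ≤ ∑ k, |⟪b k, z⟫| * ‖fderiv ℝ v y (B (b k))‖ := by
        refine (norm_sum_le _ _).trans (Finset.sum_le_sum fun k _ => ?_)
        rw [norm_smul, Real.norm_eq_abs]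
    _ ≤ Real.sqrt (∑ k, |⟪b k, z⟫| ^ 2) * Real.sqrt (∑ k, ‖fderiv ℝ v y (B (b k))‖ ^ 2) :=
        Real.sum_mul_le_sqrt_mul_sqrt _ _ _
    _ = Real.sqrt (gsq v B y) * ‖z‖ := by
        have h2 : ∑ k, |⟪b k, z⟫| ^ 2 = ‖z‖ ^ 2 := by
          simp only [sq_abs]
          rw [← b.sum_sq_norm_inner_right z]
          refine Finset.sum_congr rfl fun k _ => ?_
          rw [Real.norm_eq_abs, sq_abs]
        rw [h2, Real.sqrt_sq (norm_nonneg _), mul_comm]
        rfl

lemma gsq_le (v : E → E') {B : E →L[ℝ] E} (hB : ‖B‖ ≤ 1) (y : E) :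
    gsq v B y ≤ (Module.finrank ℝ E : ℝ) * ‖fderiv ℝ v y‖ ^ 2 := by
  unfold gsq
  calc ∑ k, ‖fderiv ℝ v y (B (stdOrthonormalBasis ℝ E k))‖ ^ 2
      ≤ ∑ _k : Fin (Module.finrank ℝ E), ‖fderiv ℝ v y‖ ^ 2 := by
        refine Finset.sum_le_sum fun k _ => ?_
        refine pow_le_pow_left₀ (norm_nonneg _) ?_ 2
        have h1 := (fderiv ℝ v y).le_opNorm (B (stdOrthonormalBasis ℝ E k))
        have h2 := B.le_opNorm (stdOrthonormalBasis ℝ E k)
        rw [(stdOrthonormalBasis ℝ E).norm_eq_one] at h2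
        calc _ ≤ ‖fderiv ℝ v y‖ * ‖B (stdOrthonormalBasis ℝ E k)‖ := h1
          _ ≤ ‖fderiv ℝ v y‖ * 1 := by gcongr; linarith
          _ = _ := mul_one _
    _ = _ := by simp

lemma lapP_le (v : E → E') {B : E →L[ℝ] E} (hB : ‖B‖ ≤ 1) (y : E) :
    ‖lapP v B y‖ ≤ (Module.finrank ℝ E : ℝ) * ‖fderiv ℝ (fderiv ℝ v) y‖ := by
  unfold lapP
  calc _ ≤ ∑ _k : Fin (Module.finrank ℝ E), ‖fderiv ℝ (fderiv ℝ v) y‖ := by
        refine (norm_sum_le _ _).trans (Finset.sum_le_sum fun k _ => ?_)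
        have h2 := B.le_opNorm (stdOrthonormalBasis ℝ E k)
        rw [(stdOrthonormalBasis ℝ E).norm_eq_one] at h2
        have h3 : ‖B (stdOrthonormalBasis ℝ E k)‖ ≤ 1 := by linarith
        calc _ ≤ ‖fderiv ℝ (fderiv ℝ v) y‖ * ‖B (stdOrthonormalBasis ℝ E k)‖ *
              ‖B (stdOrthonormalBasis ℝ E k)‖ := ContinuousLinearMap.le_opNorm₂ _ _ _
          _ ≤ ‖fderiv ℝ (fderiv ℝ v) y‖ * 1 * 1 := by gcongr
          _ = _ := by ring
    _ = _ := by simp

variable [MeasurableSpace E] [BorelSpace E]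
variable {m : ℕ} {T : Submodule ℝ E} {G : Set E} {h : ℝ} {ν : Measure E} {P : E → E →L[ℝ] E}

lemma aesm_gsq (hC : CylStat m T G h ν P) {v : E → E'} (hv : ContDiff ℝ 1 v) :
    AEStronglyMeasurable (fun y => gsq v (P y) y) ν := by
  unfold gsq
  refine Finset.aestronglyMeasurable_fun_sum _ fun k _ => ?_
  have h1 : Continuous fun p : (E →L[ℝ] E') × (E →L[ℝ] E) =>
      ‖p.1 (p.2 (stdOrthonormalBasis ℝ E k))‖ ^ 2 := by fun_prop
  exact h1.comp_aestronglyMeasurable
    ((hv.continuous_fderiv (by norm_num)).aestronglyMeasurable.prodMk hC.meas)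

lemma aesm_lapP (hC : CylStat m T G h ν P) {v : E → E'} (hv : ContDiff ℝ 2 v) :
    AEStronglyMeasurable (fun y => lapP v (P y) y) ν := by
  unfold lapP
  refine Finset.aestronglyMeasurable_fun_sum _ fun k _ => ?_
  have h0 : ContDiff ℝ 1 (fderiv ℝ v) := hv.fderiv_right (by norm_num)
  have h1 : Continuous fun p : (E →L[ℝ] E →L[ℝ] E') × (E →L[ℝ] E) =>
      p.1 (p.2 (stdOrthonormalBasis ℝ E k)) (p.2 (stdOrthonormalBasis ℝ E k)) := by fun_prop
  exact h1.comp_aestronglyMeasurable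
    ((h0.continuous_fderiv (by norm_num)).aestronglyMeasurable.prodMk hC.meas)

/-- integrability from a continuous bound with compact base support -/
lemma integrable_of_le (hC : CylStat m T G h ν P) {f g : E → ℝ}
    (hf : AEStronglyMeasurable f ν) (hg : Continuous g) (hb : BaseCpt T G g)
    (hfg : ∀ᵐ y ∂ν, |f y| ≤ g y) : Integrable f ν :=
  Integrable.mono' (hC.integrable hg hb) hf (by
    filter_upwards [hfg] with y hy
    rwa [Real.norm_eq_abs])

lemma integrable_gsq (hC : CylStat m T G h ν P) {v : E → E'} (hv : ContDiff ℝ 1 v) {φ : E → ℝ}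
    (hφ : Continuous φ) (hb : BaseCpt T G φ) (s : Set E) (hs : MeasurableSet s) :
    Integrable (fun y => φ y * s.indicator (fun y => gsq v (P y) y) y) ν := by
  refine integrable_of_le hC (g := fun y => |φ y| * ((Module.finrank ℝ E : ℝ) *
    ‖fderiv ℝ v y‖ ^ 2)) (hφ.aestronglyMeasurable.mul ((aesm_gsq hC hv).indicator hs))
    (hφ.abs.mul (continuous_const.mul ((hv.continuous_fderiv (by norm_num)).norm.pow 2)))
    (hb.comp_zero fun y hy => by simp [hy]) ?_
  filter_upwards [hC.norm_le] with y hy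
  rw [abs_mul]
  gcongr
  refine (norm_indicator_le_norm_self (fun y => gsq v (P y) y) y).trans ?_
  rw [Real.norm_eq_abs, abs_of_nonneg (gsq_nonneg _ _ _)]
  exact gsq_le v hy y

lemma integrable_lapP (hC : CylStat m T G h ν P) {v : E → E'} (hv : ContDiff ℝ 2 v) {φ : E → ℝ}
    (hφ : Continuous φ) (hb : BaseCpt T G φ) (s : Set E) (hs : MeasurableSet s) :
    Integrable (fun y => φ y * s.indicator (fun y => ‖lapP v (P y) y‖) y) ν := by
  have h0 : ContDiff ℝ 1 (fderiv ℝ v) := hv.fderiv_right (by norm_num)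
  refine integrable_of_le hC (g := fun y => |φ y| * ((Module.finrank ℝ E : ℝ) *
    ‖fderiv ℝ (fderiv ℝ v) y‖)) (hφ.aestronglyMeasurable.mul ((aesm_lapP hC hv).norm.indicator hs))
    (hφ.abs.mul (continuous_const.mul ((h0.continuous_fderiv (by norm_num)).norm)))
    (hb.comp_zero fun y hy => by simp [hy]) ?_
  filter_upwards [hC.norm_le] with y hy
  rw [abs_mul]
  gcongr
  refine (norm_indicator_le_norm_self (fun y => ‖lapP v (P y) y‖) y).trans ?_
  rw [norm_norm]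
  exact lapP_le v hy y

lemma integrable_grad (hC : CylStat m T G h ν P) {v : E → E'} (hv : ContDiff ℝ 1 v) {φ : E → ℝ}
    (hφ : ContDiff ℝ 1 φ) (hb : BaseCpt T G φ) (s : Set E) (hs : MeasurableSet s) :
    Integrable (fun y => ‖fderiv ℝ φ y‖ * s.indicator
      (fun y => Real.sqrt (gsq v (P y) y)) y) ν := by
  have hb' := hb.fderiv
  refine integrable_of_le hC (g := fun y => ‖fderiv ℝ φ y‖ * (1 + (Module.finrank ℝ E : ℝ) *
    ‖fderiv ℝ v y‖ ^ 2)) ((hφ.continuous_fderiv (by norm_num)).norm.aestronglyMeasurable.mul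
      ((Real.continuous_sqrt.comp_aestronglyMeasurable (aesm_gsq hC hv)).indicator hs))
    ((hφ.continuous_fderiv (by norm_num)).norm.mul (continuous_const.add
      (continuous_const.mul ((hv.continuous_fderiv (by norm_num)).norm.pow 2))))
    (hb'.comp_zero fun y hy => by simp [hy]) ?_
  filter_upwards [hC.norm_le] with y hy
  rw [abs_mul, abs_of_nonneg (norm_nonneg _)]
  gcongr
  refine (norm_indicator_le_norm_self (fun y => Real.sqrt (gsq v (P y) y)) y).trans ?_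
  rw [Real.norm_eq_abs, abs_of_nonneg (Real.sqrt_nonneg _)]
  have h1 := gsq_le v hy y
  have h2 := gsq_nonneg v (P y) y
  have h3 : Real.sqrt (gsq v (P y) y) ≤ 1 + gsq v (P y) y := by
    rw [Real.sqrt_le_left (by positivity)]
    nlinarith
  linarith

/-- pointwise lower bound for the Hessian of `Θ ∘ v` along the plane -/
lemma hess_Th_ge {v : E → E'} (hv : ContDiff ℝ 2 v) {σ ρ : ℝ} (hσ : 0 < σ) (hρ : 0 < ρ)
    (S : Submodule ℝ E) (y : E) :
    (chi ρ (rad σ (v y)) * σ ^ 2 * ((rad σ (v y))⁻¹) ^ 3 - |dchi ρ (rad σ (v y))|) *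
        gsq v S.starProjection y - chi ρ (rad σ (v y)) * ‖lapP v S.starProjection y‖ ≤
      hess (fun y => Th ρ σ (v y)) S.starProjection y := by
  rw [hess_comp (contDiff_Th hσ hρ) hv]
  have h1 : (chi ρ (rad σ (v y)) * σ ^ 2 * ((rad σ (v y))⁻¹) ^ 3 - |dchi ρ (rad σ (v y))|) *
      gsq v S.starProjection y ≤ ∑ k, fderiv ℝ (fderiv ℝ (Th ρ σ : E' → ℝ)) (v y)
        (fderiv ℝ v y (S.starProjection (stdOrthonormalBasis ℝ E k)))
        (fderiv ℝ v y (S.starProjection (stdOrthonormalBasis ℝ E k))) := by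
    unfold gsq
    rw [Finset.mul_sum]
    refine Finset.sum_le_sum fun k _ => ?_
    refine le_trans (le_of_eq ?_) (fderiv2_Th_ge hσ hρ _ _)
    ring
  have h2 := abs_fderiv_Th_le (ρ := ρ) hσ (v y) (lapP v S.starProjection y)
  have h3 := neg_abs_le (fderiv ℝ (Th ρ σ : E' → ℝ) (v y) (lapP v S.starProjection y))
  linarith

/-- pointwise bound of the boundary term -/
lemma abs_grad_term_le {φ : E → ℝ} {v : E → E'} (hv : ContDiff ℝ 1 v) {σ ρ : ℝ} (hσ : 0 < σ)
    (hρ : 0 < ρ) (S : Submodule ℝ E) (y : E) :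
    |fderiv ℝ φ y (S.starProjection (grad (fun y => Th ρ σ (v y)) y))| ≤
      ‖fderiv ℝ φ y‖ * (chi ρ (rad σ (v y)) * Real.sqrt (gsq v S.starProjection y)) := by
  have h1 : ‖S.starProjection (grad (fun y => Th ρ σ (v y)) y)‖ ≤
      chi ρ (rad σ (v y)) * Real.sqrt (gsq v S.starProjection y) := by
    set w := S.starProjection (grad (fun y => Th ρ σ (v y)) y) with hw
    have h2 : ‖w‖ ^ 2 ≤ (chi ρ (rad σ (v y)) * Real.sqrt (gsq v S.starProjection y)) * ‖w‖ := by
      rw [← real_inner_self_eq_norm_sq]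
      have h3 : ⟪w, w⟫ = fderiv ℝ (Th ρ σ : E' → ℝ) (v y) (fderiv ℝ v y (S.starProjection w)) := by
        have h4 : ⟪w, w⟫ = ⟪grad (fun y => Th ρ σ (v y)) y, S.starProjection w⟫ := by
          conv_lhs => rw [hw]
          rw [Submodule.inner_starProjection_left_eq_right]
        rw [h4, inner_grad]
        have h5 : fderiv ℝ (fun y => Th ρ σ (v y)) y =
            (fderiv ℝ (Th ρ σ : E' → ℝ) (v y)).comp (fderiv ℝ v y) :=
          fderiv_comp y ((contDiff_Th hσ hρ).differentiable (by norm_num) _)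
            (hv.differentiable (by norm_num) _)
        rw [h5]
        rfl
      rw [h3]
      refine (le_abs_self _).trans ((abs_fderiv_Th_le hσ _ _).trans ?_)
      have h6 := norm_sq_comp_le v S.starProjection y w
      have h7 := chi_nonneg ρ (rad σ (v y))
      calc _ ≤ chi ρ (rad σ (v y)) * (Real.sqrt (gsq v S.starProjection y) * ‖w‖) := by gcongr
        _ = _ := by ring
    have h8 := mul_nonneg (chi_nonneg ρ (rad σ (v y))) (Real.sqrt_nonneg (gsq v S.starProjection y))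
    by_contra hcon
    push Not at hcon
    nlinarith
  calc _ ≤ ‖fderiv ℝ φ y‖ * ‖S.starProjection (grad (fun y => Th ρ σ (v y)) y)‖ :=
        (fderiv ℝ φ y).le_opNorm _
    _ ≤ _ := by gcongr

/-- **Slab estimate** around the zero set of a vector valued `C^2` function `v` (typically height
minus a mean sheet), truncated at distance `ρ`. -/
theorem slab (hC : CylStat m T G h ν P) {φ : E → ℝ} (hφ : ContDiff ℝ 1 φ) (hb : BaseCpt T G φ)
    (hφ0 : ∀ y, 0 ≤ φ y) {v : E → E'} (hv : ContDiff ℝ 2 v) {σ ρ : ℝ} (hσ : 0 < σ)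
    (hρ : 4 * σ ≤ ρ) :
    ∫ y, φ y * {y | ‖v y‖ ≤ σ}.indicator (fun y => gsq v (P y) y) y ∂ν ≤
      3 * σ * ((∫ y, ‖fderiv ℝ φ y‖ * {y | ‖v y‖ ≤ ρ}.indicator
          (fun y => Real.sqrt (gsq v (P y) y)) y ∂ν) +
        (∫ y, φ y * {y | ‖v y‖ ≤ ρ}.indicator (fun y => ‖lapP v (P y) y‖) y ∂ν) +
        4 / ρ * ∫ y, φ y * {y | ρ / 4 ≤ ‖v y‖ ∧ ‖v y‖ ≤ ρ}.indicator
          (fun y => gsq v (P y) y) y ∂ν) := by
  have hρ0 : 0 < ρ := by linarith
  have hv1 : ContDiff ℝ 1 v := hv.of_le (by norm_num)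
  have hvc : Continuous v := hv.continuous
  have m1 : MeasurableSet {y | ‖v y‖ ≤ σ} := (isClosed_le hvc.norm continuous_const).measurableSet
  have m2 : MeasurableSet {y | ‖v y‖ ≤ ρ} := (isClosed_le hvc.norm continuous_const).measurableSet
  have m3 : MeasurableSet {y | ρ / 4 ≤ ‖v y‖ ∧ ‖v y‖ ≤ ρ} :=
    ((isClosed_le continuous_const hvc.norm).inter
      (isClosed_le hvc.norm continuous_const)).measurableSet
  have i1 := integrable_gsq hC hv1 hφ.continuous hb _ m1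
  have i2 := integrable_grad hC hv1 hφ hb _ m2
  have i3 := integrable_lapP hC hv hφ.continuous hb _ m2
  have i4 := integrable_gsq hC hv1 hφ.continuous hb _ m3
  have hΦ : ContDiff ℝ 2 (fun y => Th ρ σ (v y)) := (contDiff_Th hσ hρ0).comp hv
  have key := hC.prod' hφ (contDiff_grad hΦ) hb
  have i5 := hC.integrable_prod₁ hφ.continuous (contDiff_grad hΦ) hb
  have i6 := hC.integrable_prod₂ hφ (contDiff_grad hΦ).continuous hb
  -- pointwise inequality
  have hpt : ∀ᵐ y ∂ν, φ y * {y | ‖v y‖ ≤ σ}.indicator (fun y => gsq v (P y) y) y ≤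
      3 * σ * (φ y * tr ((fderiv ℝ (grad (fun y => Th ρ σ (v y))) y).comp (P y)) +
        φ y * {y | ‖v y‖ ≤ ρ}.indicator (fun y => ‖lapP v (P y) y‖) y +
        4 / ρ * (φ y * {y | ρ / 4 ≤ ‖v y‖ ∧ ‖v y‖ ≤ ρ}.indicator
          (fun y => gsq v (P y) y) y)) := by
    filter_upwards [hC.proj] with y hy
    obtain ⟨S, -, hS⟩ := hy
    rw [hS]
    have h1 := hess_Th_ge hv hσ hρ0 S y
    have h2 : hess (fun y => Th ρ σ (v y)) S.starProjection y =
      tr ((fderiv ℝ (grad (fun y => Th ρ σ (v y))) y).comp S.starProjection) := rfl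
    rw [← h2]
    set r := rad σ (v y) with hr
    have hr0 : 0 < r := rad_pos hσ _
    have hrsq : r ^ 2 = σ ^ 2 + ‖v y‖ ^ 2 := rad_sq hσ _
    have hvr : ‖v y‖ ≤ r := norm_le_rad hσ _
    set g := gsq v S.starProjection y with hg
    have hg0 : 0 ≤ g := gsq_nonneg _ _ _
    set l := ‖lapP v S.starProjection y‖ with hl
    have hl0 : 0 ≤ l := norm_nonneg _
    have hc0 := chi_nonneg ρ r
    have hc1 := chi_le_one ρ r
    -- the three indicator bounds
    have b1 : {y | ‖v y‖ ≤ σ}.indicator (fun y => gsq v (P y) y) y ≤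
        3 * σ * (chi ρ r * σ ^ 2 * (r⁻¹) ^ 3 * g) := by
      by_cases hyσ : ‖v y‖ ≤ σ
      · rw [indicator_of_mem (show y ∈ {y | ‖v y‖ ≤ σ} from hyσ), hS, ← hg]
        have hr2 : r ^ 2 ≤ 2 * σ ^ 2 := by
          rw [hrsq]
          nlinarith [norm_nonneg (v y)]
        have hrσ : r ≤ 3 / 2 * σ := by nlinarith
        have hchi : chi ρ r = 1 := chi_of_le (by linarith)
        rw [hchi]
        have h3 : r ^ 3 ≤ 3 * σ * σ ^ 2 := by
          calc r ^ 3 = r * r ^ 2 := by ring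
            _ ≤ 3 / 2 * σ * (2 * σ ^ 2) := by gcongr
            _ = 3 * σ * σ ^ 2 := by ring
        have h4 : 1 ≤ 3 * σ * (1 * σ ^ 2 * (r⁻¹) ^ 3) := by
          have h5 : 3 * σ * (1 * σ ^ 2 * (r⁻¹) ^ 3) = (3 * σ * σ ^ 2) / r ^ 3 := by
            field_simp
          rw [h5, le_div_iff₀ (by positivity)]
          linarith
        calc g = 1 * g := (one_mul _).symm
          _ ≤ (3 * σ * (1 * σ ^ 2 * (r⁻¹) ^ 3)) * g := by gcongr
          _ = _ := by ring
      · rw [indicator_of_notMem (show y ∉ {y | ‖v y‖ ≤ σ} from hyσ)]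
        positivity
    have b2 : chi ρ r * l ≤ {y | ‖v y‖ ≤ ρ}.indicator (fun y => ‖lapP v (P y) y‖) y := by
      by_cases hyρ : ‖v y‖ ≤ ρ
      · rw [indicator_of_mem (show y ∈ {y | ‖v y‖ ≤ ρ} from hyρ), hS, ← hl]
        nlinarith
      · rw [indicator_of_notMem (show y ∉ {y | ‖v y‖ ≤ ρ} from hyρ)]
        push Not at hyρ
        rw [chi_of_ge hρ0 (by linarith)]
        simp
    have b3 : |dchi ρ r| * g ≤ 4 / ρ * {y | ρ / 4 ≤ ‖v y‖ ∧ ‖v y‖ ≤ ρ}.indicator
        (fun y => gsq v (P y) y) y := by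
      by_cases hy3 : ρ / 4 ≤ ‖v y‖ ∧ ‖v y‖ ≤ ρ
      · rw [indicator_of_mem (show y ∈ {y | ρ / 4 ≤ ‖v y‖ ∧ ‖v y‖ ≤ ρ} from hy3), hS, ← hg]
        have := abs_dchi_le hρ0 r
        gcongr
      · rw [indicator_of_notMem (show y ∉ {y | ρ / 4 ≤ ‖v y‖ ∧ ‖v y‖ ≤ ρ} from hy3)]
        have : dchi ρ r = 0 := by
          rw [not_and_or] at hy3
          rcases hy3 with h3 | h3
          · push Not at h3
            refine dchi_of_le ?_
            have h4 : r ^ 2 ≤ (ρ / 2) ^ 2 := by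
              rw [hrsq]
              nlinarith [norm_nonneg (v y)]
            exact le_of_sq_le_sq h4 (by positivity)
          · push Not at h3
            exact dchi_of_ge hρ0 (by linarith)
        rw [this]
        simp
    have hφy := hφ0 y
    have hσ3 : 0 < 3 * σ := by positivity
    have h5 : chi ρ r * σ ^ 2 * (r⁻¹) ^ 3 * g ≤
        hess (fun y => Th ρ σ (v y)) S.starProjection y + |dchi ρ r| * g + chi ρ r * l := by
      have h6 : (chi ρ r * σ ^ 2 * (r⁻¹) ^ 3 - |dchi ρ r|) * g =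
        chi ρ r * σ ^ 2 * (r⁻¹) ^ 3 * g - |dchi ρ r| * g := by ring
      linarith [h1]
    calc φ y * {y | ‖v y‖ ≤ σ}.indicator (fun y => gsq v (P y) y) y
        ≤ φ y * (3 * σ * (chi ρ r * σ ^ 2 * (r⁻¹) ^ 3 * g)) := by gcongr
      _ ≤ φ y * (3 * σ * (hess (fun y => Th ρ σ (v y)) S.starProjection y +
          4 / ρ * {y | ρ / 4 ≤ ‖v y‖ ∧ ‖v y‖ ≤ ρ}.indicator (fun y => gsq v (P y) y) y +
          {y | ‖v y‖ ≤ ρ}.indicator (fun y => ‖lapP v (P y) y‖) y)) := by
          gcongr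
          linarith
      _ = _ := by ring
  have hint : ∫ y, φ y * {y | ‖v y‖ ≤ σ}.indicator (fun y => gsq v (P y) y) y ∂ν ≤
      3 * σ * ((∫ y, φ y * tr ((fderiv ℝ (grad (fun y => Th ρ σ (v y))) y).comp (P y)) ∂ν) +
        (∫ y, φ y * {y | ‖v y‖ ≤ ρ}.indicator (fun y => ‖lapP v (P y) y‖) y ∂ν) +
        4 / ρ * ∫ y, φ y * {y | ρ / 4 ≤ ‖v y‖ ∧ ‖v y‖ ≤ ρ}.indicator
          (fun y => gsq v (P y) y) y ∂ν) := by
    have e1 : ∫ y, 3 * σ * (φ y * tr ((fderiv ℝ (grad (fun y => Th ρ σ (v y))) y).comp (P y)) +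
        φ y * {y | ‖v y‖ ≤ ρ}.indicator (fun y => ‖lapP v (P y) y‖) y +
        4 / ρ * (φ y * {y | ρ / 4 ≤ ‖v y‖ ∧ ‖v y‖ ≤ ρ}.indicator
          (fun y => gsq v (P y) y) y)) ∂ν = 3 * σ *
        ((∫ y, φ y * tr ((fderiv ℝ (grad (fun y => Th ρ σ (v y))) y).comp (P y)) ∂ν) +
        (∫ y, φ y * {y | ‖v y‖ ≤ ρ}.indicator (fun y => ‖lapP v (P y) y‖) y ∂ν) +
        4 / ρ * ∫ y, φ y * {y | ρ / 4 ≤ ‖v y‖ ∧ ‖v y‖ ≤ ρ}.indicator
          (fun y => gsq v (P y) y) y ∂ν) := by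
      rw [integral_const_mul]
      congr 1
      have i7 : Integrable (fun y => φ y *
          tr ((fderiv ℝ (grad (fun y => Th ρ σ (v y))) y).comp (P y)) +
          φ y * {y | ‖v y‖ ≤ ρ}.indicator (fun y => ‖lapP v (P y) y‖) y) ν := i5.add i3
      rw [integral_add i7 (i4.const_mul (4 / ρ)), integral_add i5 i3, integral_const_mul]
    rw [← e1]
    exact integral_mono_ae i1 (((i5.add i3).add (i4.const_mul _)).const_mul _) hpt
  refine hint.trans (mul_le_mul_of_nonneg_left ?_ (by positivity))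
  refine add_le_add_left (add_le_add_left ?_ _) _
  rw [key]
  refine (neg_le_abs _).trans ((abs_integral_le_integral_abs).trans ?_)
  refine integral_mono_ae i6.abs i2 ?_
  filter_upwards [hC.proj] with y hy
  obtain ⟨S, -, hS⟩ := hy
  rw [hS]
  refine (abs_grad_term_le hv1 hσ hρ0 S y).trans ?_
  gcongr
  by_cases hyρ : ‖v y‖ ≤ ρ
  · rw [indicator_of_mem (show y ∈ {y | ‖v y‖ ≤ ρ} from hyρ), hS]
    have := chi_le_one ρ (rad σ (v y))
    have := Real.sqrt_nonneg (gsq v S.starProjection y)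
    nlinarith
  · rw [indicator_of_notMem (show y ∉ {y | ‖v y‖ ≤ ρ} from hyρ)]
    push Not at hyρ
    rw [chi_of_ge hρ0 (by linarith [norm_le_rad hσ (v y)])]
    simp

end Vale.Agent.P214.SL
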